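import Vale.Agent.P151.R3.H591.Top

/-!
P151, R3, block H: a positive operator of bounded trace commuting with the action, such that the
cocycle is orthogonal to its kernel, and a bound for the dimension of the coercive invariant
subspaces, give a finite-dimensional invariant subspace containing the cocycle.
-/

universe u v w

open Filter Topology

namespace Vale.Agent.P151.R3.H591

variable {H : Type v} [NormedAddCommGroup H] [InnerProductSpace ℝ H] [CompleteSpace H]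

/-- the conditions on the subspace -/
structure Good {Γ : Type u} [Group Γ] (π : Γ →* (H ≃ₗᵢ[ℝ] H)) (T : H →L[ℝ] H)
    (W : Submodule ℝ H) : Prop where
  fd : FiniteDimensional ℝ W
  inv : ∀ g : Γ, ∀ w ∈ W, π g w ∈ W
  tinv : ∀ w ∈ W, T w ∈ W
  coer : ∃ lam : ℝ, 0 < lam ∧ ∀ w ∈ W, lam * ‖w‖ ^ 2 ≤ inner ℝ (T w) w

private theorem extend {Γ : Type u} [Group Γ] (π : Γ →* (H ≃ₗᵢ[ℝ] H)) (T : H →L[ℝ] H)
    (hsa : ∀ v w : H, inner ℝ (T v) w = inner ℝ v (T w)) (hpos : ∀ v : H, 0 ≤ inner ℝ (T v) v)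
    (c : ℝ)
    (htr : ∀ (m : ℕ) (e : Fin m → H), Orthonormal ℝ e → ∑ i, inner ℝ (T (e i)) (e i) ≤ c)
    (hcomm : ∀ g v, T (π g v) = π g (T v)) (W : Submodule ℝ H) (hW : Good π T W)
    (hne : ∃ v ∈ Wᗮ, T v ≠ 0) :
    ∃ W' : Submodule ℝ H, Good π T W' ∧ W < W' := by
  have := hW.fd
  have hTU : ∀ v ∈ Wᗮ, T v ∈ Wᗮ := by
    intro v hv w hw
    rw [real_inner_comm, hsa, real_inner_comm]
    exact hv _ (hW.tinv w hw)
  have hπU : ∀ g : Γ, ∀ v ∈ Wᗮ, π g v ∈ Wᗮ := by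
    intro g v hv w hw
    have h0 : π g (π g⁻¹ w) = w := by
      have h := congrArg (fun f : H ≃ₗᵢ[ℝ] H => f w) (map_mul π g g⁻¹)
      rw [mul_inv_cancel, map_one] at h
      exact h.symm
    have h1 : inner ℝ w (π g v) = inner ℝ (π g⁻¹ w) v := by
      rw [← (π g).inner_map_map (π g⁻¹ w) v, h0]
    rw [h1]
    exact hv _ (hW.inv g⁻¹ w hw)
  -- the compression to `Wᗮ`
  let B : Wᗮ →L[ℝ] Wᗮ := (T.comp (Wᗮ).subtypeL).codRestrict Wᗮ fun v => hTU _ v.2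
  have hB : ∀ v : Wᗮ, ((B v : Wᗮ) : H) = T v := fun v => rfl
  have hBsa : ∀ v w : Wᗮ, inner ℝ (B v) w = inner ℝ v (B w) := fun v w => hsa v w
  have hBpos : ∀ v : Wᗮ, 0 ≤ inner ℝ (B v) v := fun v => hpos v
  have hBtr : ∀ (m : ℕ) (e : Fin m → Wᗮ), Orthonormal ℝ e → ∑ i, inner ℝ (B (e i)) (e i) ≤ c := by
    intro m e he
    exact htr m (fun i => (e i : H)) (he.comp_linearIsometry (Wᗮ).subtypeₗᵢ)
  have hB0 : B ≠ 0 := by
    obtain ⟨v, hv, hTv⟩ := hne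
    intro h
    apply hTv
    have := congrArg (fun f : Wᗮ →L[ℝ] Wᗮ => ((f ⟨v, hv⟩ : Wᗮ) : H)) h
    exact this
  obtain ⟨lam, E, hlam, hEfd, hEne, _, hEiff, hEeig⟩ := top_eigenspace B hBsa hBpos c hBtr hB0
  let E' : Submodule ℝ H := E.map (Wᗮ).subtype
  have hE'U : ∀ v ∈ E', v ∈ Wᗮ := by
    rintro v ⟨u, _, rfl⟩
    exact u.2
  have hE'T : ∀ v ∈ E', T v = lam • v := by
    rintro v ⟨u, hu, rfl⟩
    have := congrArg (fun z : Wᗮ => (z : H)) (hEeig u hu)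
    exact this
  have hE'iff : ∀ v ∈ Wᗮ, inner ℝ (T v) v = lam * ‖v‖ ^ 2 → v ∈ E' := by
    intro v hv h
    exact ⟨⟨v, hv⟩, (hEiff ⟨v, hv⟩).1 h, rfl⟩
  have hE'inv : ∀ g : Γ, ∀ v ∈ E', π g v ∈ E' := by
    intro g v hv
    apply hE'iff _ (hπU g v (hE'U v hv))
    rw [hcomm, (π g).inner_map_map, hE'T v hv, (π g).norm_map, inner_smul_left, conj_trivial,
      real_inner_self_eq_norm_sq]
  have : FiniteDimensional ℝ E' := by
    have := hEfd
    exact Module.Finite.map E (Wᗮ).subtype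
  obtain ⟨lam₀, hlam₀, hco⟩ := hW.coer
  refine ⟨W ⊔ E', ⟨inferInstance, ?_, ?_, min lam₀ lam, lt_min hlam₀ hlam, ?_⟩, ?_⟩
  · intro g w hw
    obtain ⟨w₁, h₁, w₂, h₂, rfl⟩ := Submodule.mem_sup.1 hw
    rw [map_add]
    exact Submodule.add_mem_sup (hW.inv g _ h₁) (hE'inv g _ h₂)
  · intro w hw
    obtain ⟨w₁, h₁, w₂, h₂, rfl⟩ := Submodule.mem_sup.1 hw
    rw [map_add]
    refine Submodule.add_mem_sup (hW.tinv _ h₁) ?_
    rw [hE'T _ h₂]
    exact E'.smul_mem _ h₂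
  · intro w hw
    obtain ⟨w₁, h₁, w₂, h₂, rfl⟩ := Submodule.mem_sup.1 hw
    have ho : inner ℝ w₁ w₂ = 0 := hE'U w₂ h₂ w₁ h₁
    have ho' : inner ℝ w₂ w₁ = 0 := by rw [real_inner_comm]; exact ho
    have ho2 : inner ℝ (T w₁) w₂ = 0 := hE'U w₂ h₂ _ (hW.tinv _ h₁)
    have e1 : inner ℝ (T (w₁ + w₂)) (w₁ + w₂) = inner ℝ (T w₁) w₁ + lam * ‖w₂‖ ^ 2 := by
      rw [map_add, hE'T _ h₂, inner_add_left, inner_add_right, inner_add_right, ho2,
        inner_smul_left, inner_smul_left, ho', real_inner_self_eq_norm_sq, conj_trivial]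
      ring
    have e2 : ‖w₁ + w₂‖ ^ 2 = ‖w₁‖ ^ 2 + ‖w₂‖ ^ 2 := by
      rw [norm_add_sq_real, ho]
      ring
    rw [e1, e2]
    have h3 := hco w₁ h₁
    have h4 : min lam₀ lam * ‖w₁‖ ^ 2 ≤ lam₀ * ‖w₁‖ ^ 2 := by
      gcongr
      exact min_le_left _ _
    have h5 : min lam₀ lam * ‖w₂‖ ^ 2 ≤ lam * ‖w₂‖ ^ 2 := by
      gcongr
      exact min_le_right _ _
    nlinarith
  · refine lt_of_le_of_ne le_sup_left ?_
    intro h
    apply hEne
    rw [Submodule.eq_bot_iff]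
    intro u hu
    have h1 : (u : H) ∈ E' := ⟨u, hu, rfl⟩
    have h2 : (u : H) ∈ W := h.symm.le (Submodule.mem_sup_right h1)
    have h3 : inner ℝ (u : H) (u : H) = 0 := u.2 _ h2
    exact Subtype.ext (inner_self_eq_zero.1 h3)

/-- **Block H, spectral part.** -/
theorem exists_fd {Γ : Type u} [Group Γ] (π : Γ →* (H ≃ₗᵢ[ℝ] H)) (b : Γ → H) (T : H →L[ℝ] H)
    (hsa : ∀ v w : H, inner ℝ (T v) w = inner ℝ v (T w)) (hpos : ∀ v : H, 0 ≤ inner ℝ (T v) v)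
    (c : ℝ)
    (htr : ∀ (m : ℕ) (e : Fin m → H), Orthonormal ℝ e → ∑ i, inner ℝ (T (e i)) (e i) ≤ c)
    (hcomm : ∀ g v, T (π g v) = π g (T v)) (hker : ∀ g v, T v = 0 → inner ℝ (b g) v = 0)
    (d : ℕ) (hvol : ∀ W : Submodule ℝ H, Good π T W → Module.finrank ℝ W ≤ d) :
    ∃ W : Submodule ℝ H, Good π T W ∧ ∀ g, b g ∈ W := by
  classical
  have hbot : Good π T ⊥ := by
    refine ⟨inferInstance, ?_, ?_, 1, one_pos, ?_⟩
    · intro g w hw
      rw [Submodule.mem_bot] at hw ⊢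
      rw [hw, map_zero]
    · intro w hw
      rw [Submodule.mem_bot] at hw ⊢
      rw [hw, map_zero]
    · intro w hw
      rw [Submodule.mem_bot] at hw
      rw [hw]
      simp
  -- a good subspace of maximal dimension
  let P : ℕ → Prop := fun k => ∃ W : Submodule ℝ H, Good π T W ∧ Module.finrank ℝ W = k
  have hP0 : ∃ k ≤ d, P k := ⟨Module.finrank ℝ (⊥ : Submodule ℝ H), hvol _ hbot, ⊥, hbot, rfl⟩
  obtain ⟨k₀, hk₀, hPk₀⟩ := hP0
  have hmax : P (Nat.findGreatest P d) := Nat.findGreatest_spec hk₀ hPk₀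
  obtain ⟨W, hW, hWk⟩ := hmax
  have := hW.fd
  refine ⟨W, hW, ?_⟩
  have hT0 : ∀ v ∈ Wᗮ, T v = 0 := by
    by_contra hcon
    push Not at hcon
    obtain ⟨W', hW', hlt⟩ := extend π T hsa hpos c htr hcomm W hW hcon
    have := hW'.fd
    have h1 : Module.finrank ℝ W < Module.finrank ℝ W' := Submodule.finrank_lt_finrank_of_lt hlt
    have h2 : Module.finrank ℝ W' ≤ Nat.findGreatest P d :=
      Nat.le_findGreatest (hvol W' hW') ⟨W', hW', rfl⟩
    omega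
  intro g
  have h1 : b g ∈ Wᗮᗮ := by
    intro v hv
    rw [real_inner_comm]
    exact hker g v (hT0 v hv)
  rwa [Submodule.orthogonal_orthogonal] at h1

end Vale.Agent.P151.R3.H591
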