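import Mathlib

/-!
P151, R3, block H: the top eigenspace of a positive operator of bounded trace (copy of
Vale/Agent/P188/SG/Trace.lean, with the eigenvector equation added to the conclusion).
-/

universe u v w

open Filter Topology

namespace Vale.Agent.P151.R3.H591

section Rep

variable {V : Type v} [NormedAddCommGroup V] [InnerProductSpace ℝ V]

private theorem trace_cs (B : V →L[ℝ] V)
    (hsa : ∀ v w : V, inner ℝ (B v) w = inner ℝ v (B w)) (hpos : ∀ v : V, 0 ≤ inner ℝ (B v) v)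
    (v w : V) : (inner ℝ (B v) w) ^ 2 ≤ inner ℝ (B v) v * inner ℝ (B w) w := by
  have h1 : ∀ x : ℝ, 0 ≤ inner ℝ (B v) v * (x * x) + (2 * inner ℝ (B v) w) * x +
      inner ℝ (B w) w := by
    intro x
    have h2 := hpos (x • v + w)
    have h3 : inner ℝ (B w) v = inner ℝ (B v) w := by
      rw [hsa w v, real_inner_comm]
    simp only [map_add, map_smul, inner_add_left, inner_add_right, inner_smul_left,
      inner_smul_right, h3, conj_trivial] at h2
    linarith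
  have h2 := discrim_le_zero h1
  rw [discrim] at h2
  nlinarith

private theorem trace_fin (B : V →L[ℝ] V) (c lam : ℝ) (hlam : 0 < lam)
    (htr : ∀ (m : ℕ) (e : Fin m → V), Orthonormal ℝ e → ∑ i, inner ℝ (B (e i)) (e i) ≤ c)
    (W : Submodule ℝ V) (hW : ∀ v ∈ W, inner ℝ (B v) v = lam * ‖v‖ ^ 2) :
    FiniteDimensional ℝ W := by
  by_contra hfin
  have h1 : Cardinal.aleph0 ≤ Module.rank ℝ W := by
    by_contra h2
    exact hfin (Module.rank_lt_aleph0_iff.1 (not_le.1 h2))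
  obtain ⟨m, hm⟩ := exists_nat_gt (c / lam)
  obtain ⟨f, hf⟩ := exists_linearIndependent_of_le_rank
    ((Cardinal.natCast_lt_aleph0 (n := m)).le.trans h1)
  have h2 : Orthonormal ℝ (InnerProductSpace.gramSchmidtNormed ℝ f) :=
    InnerProductSpace.gramSchmidtNormed_orthonormal hf
  have h3 : Orthonormal ℝ (fun i => ((InnerProductSpace.gramSchmidtNormed ℝ f i : W) : V)) :=
    h2.comp_linearIsometry W.subtypeₗᵢ
  have h4 := htr m _ h3
  have h5 : ∀ i : Fin m, inner ℝ (B ((InnerProductSpace.gramSchmidtNormed ℝ f i : W) : V))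
      ((InnerProductSpace.gramSchmidtNormed ℝ f i : W) : V) = lam := by
    intro i
    rw [hW _ (InnerProductSpace.gramSchmidtNormed ℝ f i).2, h3.1 i]
    ring
  simp only [h5, Finset.sum_const, Finset.card_univ, Fintype.card_fin, nsmul_eq_mul] at h4
  rw [div_lt_iff₀ hlam] at hm
  linarith

private theorem trace_cons {m : ℕ} {e : Fin m → V} (he : Orthonormal ℝ e) {r : V} (hr : ‖r‖ = 1)
    (h : ∀ i, inner ℝ (e i) r = 0) :
    Orthonormal ℝ (Fin.cons r e : Fin (m + 1) → V) := by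
  constructor
  · intro i
    refine Fin.cases ?_ (fun i => ?_) i
    · simpa using hr
    · simpa using he.1 i
  · intro i j hij
    revert hij
    refine Fin.cases ?_ (fun i => ?_) i <;> refine Fin.cases ?_ (fun j => ?_) j
    · intro h0
      exact absurd rfl h0
    · intro _
      rw [Fin.cons_zero, Fin.cons_succ, real_inner_comm]
      exact h j
    · intro _
      rw [Fin.cons_zero, Fin.cons_succ]
      exact h i
    · intro hij
      rw [Fin.cons_succ, Fin.cons_succ]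
      exact he.2 fun h0 => hij (congrArg Fin.succ h0)

variable [CompleteSpace V]

theorem top_eigenspace (B : V →L[ℝ] V) (hsa : ∀ v w : V, inner ℝ (B v) w = inner ℝ v (B w))
    (hpos : ∀ v : V, 0 ≤ inner ℝ (B v) v) (c : ℝ)
    (htr : ∀ (m : ℕ) (e : Fin m → V), Orthonormal ℝ e → ∑ i, inner ℝ (B (e i)) (e i) ≤ c)
    (hB : B ≠ 0) :
    ∃ (lam : ℝ) (W : Submodule ℝ V), 0 < lam ∧ FiniteDimensional ℝ W ∧ W ≠ ⊥ ∧
      (∀ v, inner ℝ (B v) v ≤ lam * ‖v‖ ^ 2) ∧
      (∀ v, inner ℝ (B v) v = lam * ‖v‖ ^ 2 ↔ v ∈ W) ∧ (∀ v ∈ W, B v = lam • v) := by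
  obtain ⟨v₀, hv₀⟩ : ∃ v, B v ≠ 0 := by
    by_contra h
    rw [not_exists] at h
    exact hB (ContinuousLinearMap.ext fun v => not_not.1 (h v))
  have hv₀' : v₀ ≠ 0 := by
    rintro rfl
    exact hv₀ (map_zero B)
  have hqB : ∀ v, inner ℝ (B v) v ≤ ‖B‖ * ‖v‖ ^ 2 := fun v => by
    calc inner ℝ (B v) v ≤ ‖B v‖ * ‖v‖ := real_inner_le_norm _ _
      _ ≤ (‖B‖ * ‖v‖) * ‖v‖ := by gcongr; exact B.le_opNorm v
      _ = ‖B‖ * ‖v‖ ^ 2 := by ring
  set S : Set ℝ := {x | ∃ v : V, ‖v‖ = 1 ∧ inner ℝ (B v) v = x} with hS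
  have hSb : BddAbove S := by
    refine ⟨‖B‖, ?_⟩
    rintro x ⟨v, hv, rfl⟩
    have := hqB v
    rw [hv] at this
    linarith
  have hSn : S.Nonempty := ⟨_, ‖v₀‖⁻¹ • v₀, norm_smul_inv_norm hv₀', rfl⟩
  set lam := sSup S with hlam
  have hle : ∀ v, inner ℝ (B v) v ≤ lam * ‖v‖ ^ 2 := by
    intro v
    by_cases hv : v = 0
    · simp [hv]
    · have h1 : inner ℝ (B (‖v‖⁻¹ • v)) (‖v‖⁻¹ • v) ≤ lam :=
        le_csSup hSb ⟨_, norm_smul_inv_norm hv, rfl⟩
      rw [map_smul, inner_smul_left, inner_smul_right, conj_trivial] at h1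
      have h2 : 0 < ‖v‖ := norm_pos_iff.2 hv
      calc inner ℝ (B v) v = (‖v‖⁻¹ * (‖v‖⁻¹ * inner ℝ (B v) v)) * ‖v‖ ^ 2 := by
            field_simp
        _ ≤ lam * ‖v‖ ^ 2 := by gcongr
  have hlam0 : 0 ≤ lam := by
    obtain ⟨x, hx⟩ := hSn
    obtain ⟨v, hv, rfl⟩ := hx
    exact (hpos v).trans (le_csSup hSb ⟨v, hv, rfl⟩)
  have hBv : ∀ v, ‖B v‖ ^ 2 ≤ lam * inner ℝ (B v) v := by
    intro v
    by_cases hv : B v = 0
    · rw [hv]
      simp
    · have h1 := trace_cs B hsa hpos v (B v)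
      rw [real_inner_self_eq_norm_sq] at h1
      have h2 := hle (B v)
      have h3 : 0 < ‖B v‖ ^ 2 := by
        have : 0 < ‖B v‖ := norm_pos_iff.2 hv
        positivity
      have h4 : (‖B v‖ ^ 2) ^ 2 ≤ inner ℝ (B v) v * (lam * ‖B v‖ ^ 2) :=
        h1.trans (mul_le_mul_of_nonneg_left h2 (hpos v))
      have h5 : ‖B v‖ ^ 2 * ‖B v‖ ^ 2 ≤ (lam * inner ℝ (B v) v) * ‖B v‖ ^ 2 := by
        calc ‖B v‖ ^ 2 * ‖B v‖ ^ 2 = (‖B v‖ ^ 2) ^ 2 := by ring
          _ ≤ inner ℝ (B v) v * (lam * ‖B v‖ ^ 2) := h4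
          _ = (lam * inner ℝ (B v) v) * ‖B v‖ ^ 2 := by ring
      exact le_of_mul_le_mul_right h5 h3
  have hlampos : 0 < lam := by
    rcases hlam0.eq_or_lt with h | h
    · exfalso
      have h1 := hBv v₀
      rw [← h, zero_mul] at h1
      have h2 : 0 < ‖B v₀‖ := norm_pos_iff.2 hv₀
      have h3 : 0 < ‖B v₀‖ ^ 2 := by positivity
      linarith
    · exact h
  have hdef : ∀ v, ‖lam • v - B v‖ ^ 2 ≤ lam * (lam * ‖v‖ ^ 2 - inner ℝ (B v) v) := by
    intro v
    have h1 : ‖lam • v - B v‖ ^ 2 =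
        lam ^ 2 * ‖v‖ ^ 2 - 2 * lam * inner ℝ (B v) v + ‖B v‖ ^ 2 := by
      rw [norm_sub_sq_real, norm_smul, inner_smul_left, conj_trivial, mul_pow, Real.norm_eq_abs,
        sq_abs, real_inner_comm]
      ring
    rw [h1]
    have := hBv v
    nlinarith
  -- a maximizing sequence
  have hseq : ∀ n : ℕ, ∃ v : V, ‖v‖ = 1 ∧ lam - 1 / ((n : ℝ) + 1) < inner ℝ (B v) v := by
    intro n
    have h1 : lam - 1 / ((n : ℝ) + 1) < sSup S := by
      have : (0 : ℝ) < 1 / ((n : ℝ) + 1) := by positivity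
      linarith
    obtain ⟨x, ⟨v, hv, rfl⟩, hx⟩ := exists_lt_of_lt_csSup hSn h1
    exact ⟨v, hv, hx⟩
  choose v hv1 hvq using hseq
  have hd0 : Tendsto (fun n => ‖lam • v n - B (v n)‖) atTop (𝓝 0) := by
    have h1 : Tendsto (fun n : ℕ => Real.sqrt (lam * (1 / ((n : ℝ) + 1)))) atTop (𝓝 0) := by
      have h2 : Tendsto (fun n : ℕ => lam * (1 / ((n : ℝ) + 1))) atTop (𝓝 (lam * 0)) :=
        tendsto_one_div_add_atTop_nhds_zero_nat.const_mul lam
      rw [mul_zero] at h2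
      have h3 := (Real.continuous_sqrt.tendsto 0).comp h2
      rwa [Real.sqrt_zero] at h3
    refine squeeze_zero (fun n => norm_nonneg _) (fun n => ?_) h1
    refine Real.le_sqrt_of_sq_le ((hdef (v n)).trans ?_)
    rw [hv1 n]
    have := hvq n
    gcongr
    linarith
  -- a finite family carrying almost all of the trace
  set T : Set ℝ := {x | ∃ (m : ℕ) (e : Fin m → V), Orthonormal ℝ e ∧
    ∑ i, inner ℝ (B (e i)) (e i) = x} with hT
  have hTb : BddAbove T := by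
    refine ⟨c, ?_⟩
    rintro x ⟨m, e, he, rfl⟩
    exact htr m e he
  have hTn : T.Nonempty := ⟨_, 0, Fin.elim0, ⟨fun i => i.elim0, fun i => i.elim0⟩, rfl⟩
  obtain ⟨x, ⟨m, e, he, rfl⟩, hx⟩ := exists_lt_of_lt_csSup hTn
    (show sSup T - lam / 2 < sSup T by linarith)
  have hr : ∀ r, (∀ i, inner ℝ (e i) r = 0) → inner ℝ (B r) r ≤ lam / 2 * ‖r‖ ^ 2 := by
    intro r hr
    by_cases h0 : r = 0
    · simp [h0]
    · have h1 := trace_cons he (r := ‖r‖⁻¹ • r) (norm_smul_inv_norm h0) fun i => by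
        rw [inner_smul_right, hr i, mul_zero]
      have h2 : ∑ i, inner ℝ (B ((Fin.cons (‖r‖⁻¹ • r) e : Fin (m + 1) → V) i))
          ((Fin.cons (‖r‖⁻¹ • r) e : Fin (m + 1) → V) i) ≤ sSup T :=
        le_csSup hTb ⟨m + 1, _, h1, rfl⟩
      rw [Fin.sum_univ_succ] at h2
      simp only [Fin.cons_zero, Fin.cons_succ] at h2
      rw [map_smul, inner_smul_left, inner_smul_right, conj_trivial] at h2
      have h3 : 0 < ‖r‖ := norm_pos_iff.2 h0
      have h4 : ‖r‖⁻¹ * (‖r‖⁻¹ * inner ℝ (B r) r) ≤ lam / 2 := by linarith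
      calc inner ℝ (B r) r = (‖r‖⁻¹ * (‖r‖⁻¹ * inner ℝ (B r) r)) * ‖r‖ ^ 2 := by
            field_simp
        _ ≤ lam / 2 * ‖r‖ ^ 2 := by gcongr
  -- key inequality
  have hkey : ∀ w : V, ‖w‖ ≤ 2 → lam / 2 * ‖w‖ ^ 2 ≤ 2 * ‖lam • w - B w‖ +
      6 * ‖B‖ * ∑ i, |inner ℝ (e i) w| := by
    intro w hw
    set p : V := ∑ i, inner ℝ (e i) w • e i with hp
    set r : V := w - p with hr'
    have h1 : ∀ i, inner ℝ (e i) r = 0 := by
      intro i
      rw [hr', hp, inner_sub_right, he.inner_right_fintype, sub_self]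
    have h2 : inner ℝ p r = 0 := by
      rw [hp, sum_inner]
      refine Finset.sum_eq_zero fun i _ => ?_
      rw [inner_smul_left, h1 i, mul_zero]
    have h3 : w = r + p := by rw [hr']; abel
    have h4 : ‖w‖ ^ 2 = ‖r‖ ^ 2 + ‖p‖ ^ 2 := by
      rw [h3, norm_add_sq_real, real_inner_comm, h2]
      ring
    have hrw : ‖r‖ ≤ ‖w‖ := by
      refine abs_le_of_sq_le_sq' ?_ (norm_nonneg _) |>.2
      nlinarith [sq_nonneg ‖p‖]
    have hpw : ‖p‖ ≤ ‖w‖ := by
      refine abs_le_of_sq_le_sq' ?_ (norm_nonneg _) |>.2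
      nlinarith [sq_nonneg ‖r‖]
    have hps : ‖p‖ ≤ ∑ i, |inner ℝ (e i) w| := by
      refine (norm_sum_le _ _).trans (Finset.sum_le_sum fun i _ => ?_)
      rw [norm_smul, he.1 i, mul_one, Real.norm_eq_abs]
    have h5 : inner ℝ (B w) w = inner ℝ (B r) r + 2 * inner ℝ (B p) r + inner ℝ (B p) p := by
      have h6 : inner ℝ (B r) p = inner ℝ (B p) r := by rw [hsa r p, real_inner_comm]
      conv_lhs => rw [h3]
      rw [map_add, inner_add_left, inner_add_right, inner_add_right, h6]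
      ring
    have h6 : inner ℝ (B p) r ≤ ‖B‖ * ‖p‖ * 2 := by
      calc inner ℝ (B p) r ≤ ‖B p‖ * ‖r‖ := real_inner_le_norm _ _
        _ ≤ (‖B‖ * ‖p‖) * 2 := by
          gcongr
          · exact B.le_opNorm p
          · exact hrw.trans hw
    have h7 : inner ℝ (B p) p ≤ ‖B‖ * ‖p‖ * 2 := by
      calc inner ℝ (B p) p ≤ ‖B p‖ * ‖p‖ := real_inner_le_norm _ _
        _ ≤ (‖B‖ * ‖p‖) * 2 := by
          gcongr
          · exact B.le_opNorm p
          · exact hpw.trans hw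
    have h8 := hr r h1
    have h9 : lam * ‖w‖ ^ 2 - inner ℝ (B w) w ≤ 2 * ‖lam • w - B w‖ := by
      have h10 : lam * ‖w‖ ^ 2 - inner ℝ (B w) w = inner ℝ (lam • w - B w) w := by
        rw [inner_sub_left, inner_smul_left, conj_trivial, real_inner_self_eq_norm_sq]
      rw [h10]
      calc inner ℝ (lam • w - B w) w ≤ ‖lam • w - B w‖ * ‖w‖ := real_inner_le_norm _ _
        _ ≤ ‖lam • w - B w‖ * 2 := by gcongr
        _ = 2 * ‖lam • w - B w‖ := by ring
    have h10 : lam / 2 * ‖r‖ ^ 2 ≤ lam / 2 * ‖w‖ ^ 2 := by gcongr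
    have h11 : 6 * ‖B‖ * ‖p‖ ≤ 6 * ‖B‖ * ∑ i, |inner ℝ (e i) w| := by gcongr
    nlinarith
  -- a convergent subsequence
  have hcomp : ∃ (φ : ℕ → ℕ), StrictMono φ ∧ ∃ α : Fin m → ℝ,
      Tendsto (fun n => fun i => inner ℝ (e i) (v (φ n))) atTop (𝓝 α) := by
    have h1 : ∀ n, (fun i => inner ℝ (e i) (v n) : Fin m → ℝ) ∈ Metric.closedBall 0 1 := by
      intro n
      rw [mem_closedBall_zero_iff, pi_norm_le_iff_of_nonneg zero_le_one]
      intro i
      have h2 := norm_inner_le_norm (𝕜 := ℝ) (e i) (v n)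
      rwa [he.1 i, hv1 n, mul_one] at h2
    obtain ⟨α, -, φ, hφ, hα⟩ := (isCompact_closedBall (0 : Fin m → ℝ) 1).tendsto_subseq h1
    exact ⟨φ, hφ, α, hα⟩
  obtain ⟨φ, hφ, α, hα⟩ := hcomp
  have hcauchy : CauchySeq (fun n => v (φ n)) := by
    have hα' : ∀ i, Tendsto (fun n => inner ℝ (e i) (v (φ n))) atTop (𝓝 (α i)) := by
      intro i
      exact (tendsto_pi_nhds.1 hα) i
    have h1 : Tendsto (fun n => ∑ i, |inner ℝ (e i) (v (φ n)) - α i|) atTop (𝓝 0) := by
      have h2 : Tendsto (fun n => ∑ i, |inner ℝ (e i) (v (φ n)) - α i|) atTop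
          (𝓝 (∑ i, |α i - α i|)) :=
        tendsto_finsetSum _ fun i _ => ((hα' i).sub_const (α i)).abs
      simpa using h2
    have h2 : Tendsto (fun n => ‖lam • v (φ n) - B (v (φ n))‖) atTop (𝓝 0) :=
      hd0.comp hφ.tendsto_atTop
    have h3 : Tendsto (fun n => 2 * ‖lam • v (φ n) - B (v (φ n))‖ +
        6 * ‖B‖ * ∑ i, |inner ℝ (e i) (v (φ n)) - α i|) atTop (𝓝 0) := by
      have := (h2.const_mul 2).add (h1.const_mul (6 * ‖B‖))
      simpa using this
    rw [Metric.cauchySeq_iff]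
    intro ε hε
    have h4 : ∀ᶠ n in atTop, 2 * ‖lam • v (φ n) - B (v (φ n))‖ +
        6 * ‖B‖ * ∑ i, |inner ℝ (e i) (v (φ n)) - α i| < lam / 4 * ε ^ 2 :=
      h3.eventually_lt_const (by positivity)
    obtain ⟨N, hN⟩ := eventually_atTop.1 h4
    refine ⟨N, fun j hj l hl => ?_⟩
    have h5 := hN j hj
    have h6 := hN l hl
    have h7 := hkey (v (φ j) - v (φ l)) (by
      refine (norm_sub_le _ _).trans ?_
      rw [hv1, hv1]
      norm_num)
    have h8 : ‖lam • (v (φ j) - v (φ l)) - B (v (φ j) - v (φ l))‖ ≤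
        ‖lam • v (φ j) - B (v (φ j))‖ + ‖lam • v (φ l) - B (v (φ l))‖ := by
      have h9 : lam • (v (φ j) - v (φ l)) - B (v (φ j) - v (φ l)) =
          (lam • v (φ j) - B (v (φ j))) - (lam • v (φ l) - B (v (φ l))) := by
        rw [map_sub, smul_sub]
        abel
      rw [h9]
      exact norm_sub_le _ _
    have h9 : ∑ i, |inner ℝ (e i) (v (φ j) - v (φ l))| ≤
        ∑ i, |inner ℝ (e i) (v (φ j)) - α i| + ∑ i, |inner ℝ (e i) (v (φ l)) - α i| := by
      rw [← Finset.sum_add_distrib]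
      refine Finset.sum_le_sum fun i _ => ?_
      rw [inner_sub_right]
      have h10 : (inner ℝ (e i) (v (φ j)) - inner ℝ (e i) (v (φ l)) : ℝ) =
          (inner ℝ (e i) (v (φ j)) - α i) - (inner ℝ (e i) (v (φ l)) - α i) := by ring
      rw [h10]
      exact abs_sub _ _
    have h10 : lam / 2 * ‖v (φ j) - v (φ l)‖ ^ 2 < lam / 2 * ε ^ 2 := by
      have h11 := mul_le_mul_of_nonneg_left h9 (show 0 ≤ 6 * ‖B‖ by positivity)
      nlinarith
    have h11 : ‖v (φ j) - v (φ l)‖ ^ 2 < ε ^ 2 := lt_of_mul_lt_mul_left h10 (by positivity)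
    rw [dist_eq_norm]
    exact lt_of_pow_lt_pow_left₀ 2 hε.le h11
  obtain ⟨z, hz⟩ := cauchySeq_tendsto_of_complete hcauchy
  have hz1 : ‖z‖ = 1 := by
    have h1 : Tendsto (fun n => ‖v (φ n)‖) atTop (𝓝 ‖z‖) := hz.norm
    simp only [hv1] at h1
    exact tendsto_nhds_unique h1 tendsto_const_nhds |>.trans rfl |>.symm ▸ rfl
  have hzB : lam • z - B z = 0 := by
    have h1 : Tendsto (fun n => ‖lam • v (φ n) - B (v (φ n))‖) atTop (𝓝 ‖lam • z - B z‖) :=
      ((hz.const_smul lam).sub ((B.continuous.tendsto z).comp hz)).norm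
    have h2 := tendsto_nhds_unique h1 (hd0.comp hφ.tendsto_atTop)
    exact norm_eq_zero.1 h2
  have hmem : ∀ v, inner ℝ (B v) v = lam * ‖v‖ ^ 2 ↔
      v ∈ LinearMap.ker (lam • ContinuousLinearMap.id ℝ V - B : V →L[ℝ] V).toLinearMap := by
    intro v
    rw [LinearMap.mem_ker]
    change _ ↔ lam • v - B v = 0
    constructor
    · intro h
      have h1 := hdef v
      rw [h, sub_self, mul_zero] at h1
      have h2 : ‖lam • v - B v‖ = 0 := by
        have := norm_nonneg (lam • v - B v)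
        nlinarith
      exact norm_eq_zero.1 h2
    · intro h
      have h1 : B v = lam • v := (sub_eq_zero.1 h).symm
      rw [h1, inner_smul_left, conj_trivial, real_inner_self_eq_norm_sq]
  refine ⟨lam, LinearMap.ker (lam • ContinuousLinearMap.id ℝ V - B : V →L[ℝ] V).toLinearMap,
    hlampos, ?_, ?_, hle, hmem, ?_⟩
  · exact trace_fin B c lam hlampos htr _ fun v hv => (hmem v).2 hv
  · intro h0
    have h1 : z ∈ LinearMap.ker (lam • ContinuousLinearMap.id ℝ V - B : V →L[ℝ] V).toLinearMap :=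
      hzB
    rw [h0, Submodule.mem_bot] at h1
    rw [h1, norm_zero] at hz1
    exact zero_ne_one hz1
  · intro v hv
    rw [LinearMap.mem_ker] at hv
    change lam • v - B v = 0 at hv
    exact (sub_eq_zero.1 hv).symm

end Rep

end Vale.Agent.P151.R3.H591
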